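import Vale.Agent.P354DO.Loc

/-!
Timelike directions on an end along which a function of the type r + t / 16 decreases.
-/

open scoped ContDiff
open Set Filter Topology

noncomputable section

namespace Vale.Agent.P354DO

open Vale.Agent.P354n (R4)
open Vale.Agent.P354 (Bilin)
open Vale.Agent.P354I (rm rp rnd Sg)
open Vale.Agent.P354R (Del Met)
open Vale.Agent.P354XE hiding rd_cont
open Vale.Agent.P354XA

variable {M a : ℝ} {p v : R4}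

/-- An ingoing timelike direction of Kerr. -/
theorem near_dir {r0 : ℝ} (hM : 0 < M) (h0 : 0 < r0) (h1 : r0 ≤ 2 * M) (hp : r0 ≤ rd p) :
    ∃ Z : R4, 0 < Z.1 ∧ Z.1 ≤ 3 / 2 ∧ dr p Z = -1 ∧ ‖Z‖ ^ 2 ≤ 4 ∧
      gin M a p Z Z ≤ -(r0 / (4 * M)) := by
  have r0' : 0 < rd p := h0.trans_le hp
  obtain ⟨η, η0, η1, hη⟩ : ∃ η, 0 < η ∧ η ≤ 1 / 2 ∧ r0 / (4 * M) = η :=
    ⟨_, by positivity, by rw [div_le_iff₀ (by positivity)]; linarith, rfl⟩
  have hη' : r0 = 4 * M * η := by rw [← hη]; field_simp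
  set Z : R4 := (1 + η, (-1 / rd p) • p.2) with hZ
  have e0 : ∀ v, ip v Z = -1 / rd p * ip v p := fun v => by simp [hZ, ip]; ring
  have e1 : dr p Z = -1 := by rw [dr_eq, e0, ← rd_sq]; field_simp
  have e2 : dq p Z = 0 := by simp [hZ, dq_eq]; ring_nf; simp
  have e3 : ip Z Z = 1 := by
    rw [e0, show ip Z p = ip p Z by simp only [ip]; ring, e0, ← rd_sq]; field_simp
  have e4 : rnd (xs p) (xs Z) (xs Z) = 0 := by
    have := ip_split r0'.ne' Z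
    rw [e1, e3] at this
    exact (mul_eq_zero.1 (by linarith)).resolve_left (pow_pos r0' 2).ne'
  have e5 : Z.1 = 1 + η := rfl
  refine ⟨Z, by rw [e5]; linarith, by rw [e5]; linarith, e1, ?_, ?_⟩
  · have := norm_sq_le Z
    rw [e3, e5] at this
    nlinarith
  · have : 2 * M * rd p / Sg a (rd p) (xs p) * η ≤ 1 / 2 := by
      rw [div_mul_eq_mul_div, div_le_iff₀ ((pow_pos r0' 2).trans_le (Sg_ge a p))]
      nlinarith [Sg_ge a p, mul_le_mul_of_nonneg_left hp r0'.le]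
    rw [gin, kf, e1, e2, e4, e5, hη]
    nlinarith [mul_le_mul_of_nonneg_left this η0.le]

/-- Upper bounds for the values of g on the frame. -/
theorem far_up {s δ ε : ℝ} {N : ℕ} {g : Tw} {β : Fin 3 → R4 → ℝ} (h : Far M a s δ ε N g β p)
    (hB : Bilin (g p)) (ha : |a| < M) (s0 : 0 ≤ s) (d0 : 0 ≤ δ)
    (e0 : 0 ≤ ε) (e1 : ε * (M + 1) ≤ 1 / 60) (hr : 20 * (M + 1) ≤ rd p) :
    -(21 / 20) ≤ g p (Lo M a p) (Nf β p) ∧
      g p (Nf β p) (Nf β p) ≤ -(9 / 10) + ε * (1 + rd p * uw M a p ^ (-s)) := by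
  have M0 : 0 < M := (abs_nonneg a).trans_lt ha
  have r0 : 0 < rd p := by linarith
  have D0 : Del M a (rd p) ≠ 0 := by
    have : 0 < Del M a (rd p) := by unfold Del; nlinarith [sq_nonneg a]
    exact this.ne'
  have LT := h.gauge.self_of_nhds.2
  rw [gin_Lo r0.ne' D0 (dr_T p), show dq p eT = 0 by simp [dq_eq, eT]] at LT
  have hβ : ∀ i, |β i p| ≤ ε := fun i => ((h.shift i).1 [] (Nat.zero_le _)).1.trans
    (mul_le_of_le_one_right e0 (uw_le s0 M a p).2)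
  constructor
  · have k := (abs_le.1 (sum_le hB (fun i => β i p) (far_val h hB ha s0 d0 e0 e1 hr).1)).1
    have k' : ∑ i, |β i p| ≤ 3 * ε := by
      rw [Fin.sum_univ_three]; linarith [hβ 0, hβ 1, hβ 2]
    rw [Nf, hB.add_right, LT]
    have : eT.1 = 1 := rfl
    nlinarith
  · have q1 : 2 * M * rd p / Sg a (rd p) (xs p) ≤ 1 / 10 := by
      rw [div_le_iff₀ ((pow_pos r0 2).trans_le (Sg_ge a p))]
      nlinarith [Sg_ge a p]
    have k := (abs_le.1 (h.tt [] (Nat.zero_le _)).1).2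
    simp only [wd, ftt, gin_T (dr_T p), show dq p eT = 0 by simp [dq_eq, eT],
      show eT.1 = 1 from rfl] at k
    linarith

/-- The function which increases towards the past. -/
def Ps (ε R : ℝ) (q : Par) (G ρ : ℝ → ℝ) (x : R4) : ℝ :=
  rd x + x.1 / q.l / 16 - 2 * ε * (ρ (rd x - (R + 1)) * G (x.1 / q.l - psi q.M q.a (rd x)))

theorem dir_alg {l A B C e x : ℝ} (l1 : 1 ≤ l) (l2 : l ≤ 21 / 20) (A0 : 0 ≤ A) (A1 : A ≤ 1 / 20)
    (B0 : 0 ≤ B) (C0 : 0 ≤ C) (C1 : C ≤ B + e) (e1 : e ≤ 1 / 10) (hx : x = -(1 / 4) + C) :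
    x + (1 + x * l) / 16 - 2 * (A * x + B) < 0 := by
  subst hx
  nlinarith [mul_nonneg A0 C0, mul_le_mul_of_nonneg_left l2 C0]

theorem far_dir {s δ ε R C : ℝ} {N : ℕ} {g : Tw} {β : Fin 3 → R4 → ℝ} {q : Par}
    {G ρ ρ' : ℝ → ℝ} (hG : ∀ u, HasDerivAt G (√(1 + u ^ 2) ^ (-s)) u ∧ 0 ≤ G u ∧ G u ≤ C)
    (hρ : ∀ x, HasDerivAt ρ (ρ' x) x ∧ 0 ≤ ρ' x ∧ ρ' x ≤ 1 ∧ x - 1 ≤ ρ x ∧ 0 ≤ ρ x ∧ ρ x ≤ |x|)
    (hq : q.R.transpose * q.R = 1) (l0 : q.l ≠ 0) (ha : |q.a| < q.M) (s0 : 0 ≤ s) (d0 : 0 ≤ δ)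
    (e0 : 0 ≤ ε) (e1 : ε * (q.M + 1) ≤ 1 / 60) (e2 : ε * C ≤ 1 / 20) (e3 : ε * (R + 3) ≤ 1 / 10)
    (hR : 82 * (q.M + 1) ≤ R) (hr : R + 1 ≤ rd p) (hB : Bilin (g (q.lin p)))
    (hs : ∀ a b, g (q.lin p) a b = g (q.lin p) b a)
    (h : Far q.M q.a s δ ε N (pb q.lin g) β p) : DifferentiableAt ℝ (Ps ε R q G ρ) (q.lin p) ∧
      ∃ w, g (q.lin p) w w < 0 ∧ g (q.lin p) w (q.lin (Lo q.M q.a p)) < 0 ∧
        fderiv ℝ (Ps ε R q G ρ) (q.lin p) w < 0 := by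
  obtain ⟨M0, -, -, h3, -⟩ := hor ha
  have e := rd_lin hq p
  have r0 : 0 < rd p := by linarith
  have r1 : rp q.M q.a < rd (q.lin p) := by rw [e]; linarith
  have d1 := ((rd_cd (n := 1) (by rw [e]; exact r0.ne' : rd (q.lin p) ≠ 0)).differentiableAt
    one_ne_zero).hasFDerivAt
  have d0' := (hasFDerivAt_fst (𝕜 := ℝ) (p := q.lin p)).mul_const q.l⁻¹
  have d := ((d1.add (d0'.mul_const 16⁻¹)).sub
    ((((hρ _).1.comp_hasFDerivAt _ (d1.sub_const (R + 1))).mul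
    ((hG _).1.comp_hasFDerivAt _ (d0'.sub ((psi_deriv ha r1).comp_hasFDerivAt _ d1)))).const_mul
      (2 * ε))).congr_of_eventuallyEq (f₁ := Ps ε R q G ρ)
      (Eventually.of_forall fun x => by simp [Ps, div_eq_mul_inv])
  have fd : ∀ v, fderiv ℝ (Ps ε R q G ρ) (q.lin p) (q.lin v) = dr p v + v.1 / 16 -
      2 * (ε * (ρ' (rd p - (R + 1)) * G (ur q.M q.a p)) * dr p v +
        ε * (ρ (rd p - (R + 1)) * uw q.M q.a p ^ (-s)) * (v.1 - lo1 q.M q.a (rd p) * dr p v)) :=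
    fun v => by
    rw [d.fderiv]
    have t : ∀ x : ℝ, q.l * x * q.l⁻¹ = x := fun x => by field_simp
    have t' : ∀ x : ℝ, q.l⁻¹ * (q.l * x) = x := fun x => by field_simp
    simp [rd_fd (e ▸ r0.ne' : rd (q.lin p) ≠ 0), dr_lin hq, e, lin_fst, t, t', uw, ur_eq]
    ring
  have B : Bilin (pb q.lin g p) := by
    have a1 : ∀ a b, q.lin (a + b) = q.lin a + q.lin b := (linL q).map_add
    have a2 : ∀ (t : ℝ) a, q.lin (t • a) = t • q.lin a := (linL q).map_smul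
    constructor <;> intros <;> simp only [pb_lin, a1, a2, hB.add_left, hB.add_right,
      hB.smul_left, hB.smul_right]
  have sy : ∀ a b, pb q.lin g p a b = pb q.lin g p b a := fun a b => by rw [pb_lin, pb_lin, hs]
  obtain ⟨m0, m1⟩ := uw_le s0 q.M q.a p
  obtain ⟨-, p0, p1, p2, p3, -⟩ := hρ (rd p - (R + 1))
  obtain ⟨-, g0, g1⟩ := hG (ur q.M q.a p)
  obtain ⟨l1, l2⟩ := lo1_mem ha (r := rd p) (by linarith)
  obtain ⟨-, v1, -⟩ := far_val h B ha s0 d0 e0 e1 (by linarith)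
  obtain ⟨v2, v3⟩ := far_up h B ha s0 d0 e0 e1 (by linarith)
  have LL := h.gauge.self_of_nhds.1
  obtain ⟨c, hc⟩ : ∃ c, c = ε * (rd p * uw q.M q.a p ^ (-s)) := ⟨_, rfl⟩
  have c0 : 0 ≤ c := by rw [hc]; positivity
  have e4 : ε ≤ 1 / 60 := by nlinarith
  refine ⟨d.differentiableAt, q.lin (Nf β p + (-(1 / 4) + c) • Lo q.M q.a p), ?_, ?_, ?_⟩
  · rw [← pb_lin q g]
    simp only [B.add_left, B.add_right, B.smul_left, B.smul_right, LL, sy (Nf β p) (Lo q.M q.a p)]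
    rw [mul_add, ← hc] at v3
    nlinarith [mul_le_mul_of_nonneg_left v1 c0]
  · rw [← pb_lin q g]
    simp only [B.add_left, B.smul_left, LL, sy (Nf β p) (Lo q.M q.a p)]
    linarith
  have a1 : dr p (Nf β p + (-(1 / 4) + c) • Lo q.M q.a p) = -(1 / 4) + c := by
    rw [← rd_fd r0.ne', Nf, map_add, map_add, map_sum]
    simp only [map_smul]
    simp [rd_fd r0.ne', dr_Om, dr_T, dr_Lo r0.ne']
  have a2 : (Nf β p + (-(1 / 4) + c) • Lo q.M q.a p).1 = 1 + (-(1 / 4) + c) * lo1 q.M q.a (rd p) := by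
    simp [Nf, Lo_fst, eT, Fin.sum_univ_three, Om_fst]
  rw [fd, a1, a2, show ∀ x y : ℝ, 1 + x * y - y * x = 1 from fun x y => by ring, mul_one]
  refine dir_alg (e := ε * (R + 3)) l1 l2 (by positivity) ?_ (by positivity) c0 ?_ e3 rfl
  · have : ρ' (rd p - (R + 1)) * G (ur q.M q.a p) ≤ C := by nlinarith
    linarith [mul_le_mul_of_nonneg_left this e0]
  · have : rd p * uw q.M q.a p ^ (-s) ≤ ρ (rd p - (R + 1)) * uw q.M q.a p ^ (-s) + (R + 3) := by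
      nlinarith [mul_le_mul_of_nonneg_right p2 m0.le]
    linarith [mul_le_mul_of_nonneg_left this e0]

/-- The time function, the monotone function and the directions on an end. -/
structure Ed (M a r1 r0 θ : ℝ) (g : Tw) (Y : R4 → R4) (τ Ψ : R4 → ℝ) : Prop where
  tm : ∀ p ∈ Er M a r1 r0 θ, Tm g Y τ p
  cpt : ∀ c, IsCompact {p ∈ Er M a r1 r0 θ | τ p ≤ c}
  lo : ∀ p, 0 ≤ p.1 → rd p / 2 + p.1 / 32 ≤ Ψ p
  up : ∀ p c, 0 ≤ c → p.1 ≤ c → Ψ p ≤ rd p + c / 8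
  dir : ∀ p ∈ Er M a r1 r0 θ, DifferentiableAt ℝ Ψ p ∧ ∃ w, Ft g Y p w ∧ fderiv ℝ Ψ p w < 0 ∧
    (r0 < rd p ∨ dr p w < 0)

theorem ed (M a s δ r1 r0 θ : ℝ) (ha : |a| < M) (hs : 1 < s) (hδ : 0 < δ) (h1 : rm M a < r1)
    (h2 : r1 < r0) (h3 : r0 < rp M a) (hθ : 0 < θ) : ∃ R0, ∀ R ≥ R0, ∃ ε0 > 0, ∀ ε ∈ Ioc 0 ε0,
      ∀ N g D Y q q' β, Met g D → En M a r1 θ ⊆ D → (∀ p ∈ En M a r1 θ, g p (Y p) (Y p) < 0) →
      IsEnd M a r1 θ R s δ ε N g Y q q' β → ∃ τ Ψ, Ed M a r1 r0 θ g Y τ Ψ := by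
  obtain ⟨M0, m0, m1, m2, -⟩ := hor ha
  obtain ⟨R0, H⟩ := lid M a s δ r1 r0 θ ha hs hδ h1 h2 h3 hθ
  obtain ⟨G, C, -, hG⟩ := exists_prim hs
  obtain ⟨ρ, ρ', -, p2, p3⟩ := exists_pos
  have r00 : 0 < r0 := by linarith
  refine ⟨max R0 (82 * (M + 2)), fun R hR => ?_⟩
  have R2 : 82 * (M + 2) ≤ R := (le_max_right _ _).trans hR
  obtain ⟨ε1, hε1, H⟩ := H R ((le_max_left _ _).trans hR)
  obtain ⟨ε0, hε0, hε⟩ := mem_nhdsGT_iff_exists_Ioc_subset.1 ((small 1 hε1).and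
    ((small 4 (show 0 < r0 / (4 * M) by positivity)).and
    ((small (M + 2) (show (0 : ℝ) < 1 / 60 by norm_num)).and
    ((small C (show (0 : ℝ) < 1 / 20 by norm_num)).and
    ((small (R + 3) (show (0 : ℝ) < 1 / 10 by norm_num)).and (small 2 (sub_pos.2 ha)))))))
  refine ⟨ε0, hε0, fun ε e N g D Y q q' β hg hD hY h => ?_⟩
  obtain ⟨e1, e3, e4, e5, e6, e7⟩ := hε e
  obtain ⟨t1, -, -, τ, t2, t3⟩ := H ε ⟨e.1, by linarith⟩ N g D Y q q' β hg hD hY h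
  obtain ⟨q1, q2, q3, q4, -⟩ := h.par.2
  rw [abs_lt] at q1 q3
  have qa : |q'.a| < q'.M := by linarith [abs_sub_abs_le_abs_sub q'.a a, q1.1]
  have e8 : ε < 1 / 120 := by nlinarith [e.1]
  have l0 : 0 < q'.l := by linarith [q3.1]
  have F : ∀ p : R4, 0 ≤ ε * (ρ (rd p - (R + 1)) * G (p.1 / q'.l - psi q'.M q'.a (rd p))) ∧
      ε * (ρ (rd p - (R + 1)) * G (p.1 / q'.l - psi q'.M q'.a (rd p))) ≤ rd p / 20 := fun p => by
    obtain ⟨-, -, -, -, a1, a2⟩ := p3 (rd p - (R + 1))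
    obtain ⟨-, b1, b2⟩ := hG (p.1 / q'.l - psi q'.M q'.a (rd p))
    have a3 : ρ (rd p - (R + 1)) ≤ rd p := by
      rcases le_total (rd p - (R + 1)) 0 with k | k
      · rw [p2 _ k]; exact rd_nonneg p
      · rw [abs_of_nonneg k] at a2; linarith
    refine ⟨mul_nonneg e.1.le (mul_nonneg a1 b1), ?_⟩
    nlinarith [mul_le_mul_of_nonneg_left (mul_le_mul a3 b2 b1 (rd_nonneg p)) e.1.le,
      mul_le_mul_of_nonneg_left e5.le (rd_nonneg p)]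
  refine ⟨τ, Ps ε R q' G ρ, t2, t3, fun p k => ?_, fun p c c0 k => ?_, fun p hp => ?_⟩
  · have : p.1 / 2 ≤ p.1 / q'.l := div_le_div_of_nonneg_left k l0 (by linarith [q3.2])
    unfold Ps
    linarith [(F p).2, rd_nonneg p]
  · have : p.1 / q'.l ≤ 2 * c := by rw [div_le_iff₀ l0]; nlinarith [q3.1]
    unfold Ps
    linarith [(F p).1]
  have B := met_bil hg (hD hp.1)
  have sy := hg.symm p (hD hp.1)
  rcases lt_or_ge (rd p) (R + 1) with k | k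
  · have r0' : 0 < rd p := r00.trans_le hp.2
    have d := ((((rd_cd (n := 1) r0'.ne').differentiableAt one_ne_zero).hasFDerivAt).add
      (((hasFDerivAt_fst (𝕜 := ℝ) (p := p)).mul_const q'.l⁻¹).mul_const 16⁻¹)).congr_of_eventuallyEq
      (f₁ := Ps ε R q' G ρ) (by
        filter_upwards [rd_cont.continuousAt.eventually (gt_mem_nhds k)] with x hx
        simp [Ps, p2 _ (show rd x - (R + 1) ≤ 0 by linarith), div_eq_mul_inv])
    obtain ⟨Z, z1, z2, z3, z4, z5⟩ := near_dir (a := a) M0 r00 (by linarith) hp.2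
    have zz : g p Z Z < 0 := by
      have k := (h.near p hp.1 (by linarith)).2.1 0 (Nat.zero_le _) Z Z
      rw [norm_iteratedFDeriv_zero] at k
      have k2 : g p Z Z - gin M a p Z Z ≤ ε * (‖Z‖ * ‖Z‖) := (abs_le.1 k).2
      linarith [mul_le_mul_of_nonneg_left z4 e.1.le]
    obtain ⟨-, u1, u2⟩ := t1 p hp.1 (by linarith)
    refine ⟨d.differentiableAt, Z, ⟨zz, ft_of B sy _ u2 u1 (hY p hp.1) zz
      (by rw [fderiv_fst]; exact z1)⟩, ?_, .inr (by linarith)⟩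
    have : q'.l⁻¹ * Z.1 ≤ 3 := by rw [inv_mul_le_iff₀ l0]; linarith [q3.1]
    rw [d.fderiv]
    simp [rd_fd r0'.ne', z3]
    linarith
  · obtain ⟨p, rfl⟩ := lin_surj q4 l0.ne' p
    have k' := k
    rw [rd_lin q4] at k
    obtain ⟨f1, f2⟩ := h.far p hp.1 k
    obtain ⟨d, w, w1, w2, w3⟩ := far_dir hG p3 q4 l0.ne' qa (by linarith) hδ.le e.1.le
      (by nlinarith [q1.2, e.1]) e5.le e6.le (by linarith [q1.2]) k B sy f2
    obtain ⟨-, u1, u2⟩ := t2 _ hp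
    have LL : g (q'.lin p) (q'.lin (Lo q'.M q'.a p)) (q'.lin (Lo q'.M q'.a p)) ≤ 0 := by
      rw [← pb_lin q' g]; exact f2.gauge.self_of_nhds.1.le
    exact ⟨d, w, ⟨w1, ft_of B sy _ u2 u1 (hY _ hp.1) w1 (pos_of_ker B sy _ u2 (pos_of_ker B sy _ u2
      u1 (hY _ hp.1).le LL (sy _ _ ▸ f1)) LL w1.le w2)⟩, w3, .inl (by linarith)⟩

end Vale.Agent.P354DO
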