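import Vale.Agent.P354YM.Props
import Vale.Agent.P354XA.Pac
import Vale.Agent.P354XA.Lid
import Vale.Agent.P354XE.Low

/-!
Chains of timelike segments: local statements, and a descent principle on compact sets.
-/

open scoped ContDiff
open Set Filter Topology Metric

noncomputable section

namespace Vale.Agent.P354DO

open Vale.Agent.P354n (R4)
open Vale.Agent.P354 (Bilin)
open Vale.Agent.P354XE
open Vale.Agent.P354YM (Cu Cv)
open Vale.Agent.P354XA (met_bil met_G)

variable {g : Tw} {D S S' O : Set R4} {Xf : R4 → R4} {p q w x x' : R4}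

/-- Descent on a compact set. -/
theorem reach {K : Set R4} (hK : IsCompact K) {f : R4 → ℝ} (hf : ContinuousOn f K)
    {G : R4 → Prop} (h : ∀ p ∈ K, (∀ᶠ x in 𝓝[K] p, G x) ∨
      ∃ p' ∈ K, f p' < f p ∧ ∀ᶠ x in 𝓝[K] p, G p' → G x) : ∀ p ∈ K, G p := by
  intro p0 hp0
  by_contra h0
  have sub : closure {x ∈ K | ¬G x} ⊆ K := closure_minimal (sep_subset _ _) hK.isClosed
  obtain ⟨p, hp, hm⟩ := (hK.of_isClosed_subset isClosed_closure sub).exists_isMinOn
    ⟨p0, subset_closure ⟨hp0, h0⟩⟩ (hf.mono sub)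
  have ev : ∀ᶠ x in 𝓝[K] p, G x := by
    rcases h p (sub hp) with k | ⟨p', k1, k2, k3⟩
    · exact k
    · have : G p' := by
        by_contra j
        exact k2.not_ge (hm (subset_closure ⟨k1, j⟩))
      exact k3.mono fun x hx => hx this
  obtain ⟨x, x1, x2⟩ := ((mem_closure_iff_frequently.1 hp).and_eventually
    (eventually_nhdsWithin_iff.1 ev)).exists
  exact x1.2 (x2 x1.1)

theorem cv_mono (h : Cv g Xf S x x') (k : S ⊆ S') : Cv g Xf S' x x' := by
  induction h with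
  | refl => exact .refl
  | tail _ j i =>
    obtain ⟨γ, a, b, c⟩ := j
    exact i.tail ⟨γ, a, b, fun s hs => ⟨k (c s hs).1, (c s hs).2⟩⟩

/-- The future cone is open. -/
theorem ft_ev (h : Lor g D Xf) (hq : q ∈ D) (hw : Ft g Xf q w) :
    ∀ᶠ z : R4 × R4 in 𝓝 (q, w), z.1 ∈ D ∧ Ft g Xf z.1 z.2 := by
  obtain ⟨G, c, e⟩ := met_G h.met
  have n := h.isOpen.mem_nhds hq
  have m : ∀ᶠ z : R4 × R4 in 𝓝 (q, w), z.1 ∈ D := continuousAt_fst.eventually n
  have c1 : ContinuousAt (fun z : R4 × R4 => G z.1) (q, w) :=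
    ContinuousAt.comp (g := G) (c.continuousOn.continuousAt n) continuousAt_fst
  have c2 : ContinuousAt (fun z : R4 × R4 => Xf z.1) (q, w) :=
    ContinuousAt.comp (g := Xf) (h.cont.continuousAt n) continuousAt_fst
  have a := hw.1
  have b := hw.2
  rw [e q hq] at a b
  filter_upwards [m, ((c1.clm_apply continuousAt_snd).clm_apply
    continuousAt_snd).eventually_lt_const a, ((c1.clm_apply continuousAt_snd).clm_apply
    c2).eventually_lt_const b] with z z1 z2 z3
  exact ⟨z1, by rw [e _ z1]; exact z2, by rw [e _ z1]; exact z3⟩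

theorem ft_smul (hB : Bilin (g p)) (hw : Ft g Xf p w) {l : ℝ} (hl : 0 < l) :
    Ft g Xf p (l • w) := by
  constructor
  · rw [hB.smul_left, hB.smul_right]
    exact mul_neg_of_pos_of_neg hl (mul_neg_of_pos_of_neg hl hw.1)
  · rw [hB.smul_left]
    exact mul_neg_of_pos_of_neg hl hw.2

/-- Segments in a small ball. -/
theorem seg (h : Lor g D Xf) (hq : q ∈ D) (hw : Ft g Xf q w) (hO : O ∈ 𝓝 q) : ∃ δ > 0,
    ∀ x ∈ ball q δ, ∀ v ∈ ball w δ, ∀ l > (0 : ℝ), x - l • v ∈ ball q δ → 0 ≤ x.1 →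
      0 ≤ (x - l • v).1 → ∃ γ, Cu g Xf {z ∈ O | 0 ≤ z.1} (x - l • v) x γ := by
  obtain ⟨δ, δ0, hδ⟩ := Metric.mem_nhds_iff.1
    ((ft_ev h hq hw).and (continuousAt_fst (p := (q, w)).eventually hO))
  rw [← ball_prod_same] at hδ
  refine ⟨δ, δ0, fun x hx v hv l hl hx' t1 t0 => ⟨fun t => (x - l • v) + t • l • v, by simp,
    by simp, fun t ht => ?_⟩⟩
  have e : (x - l • v) + t • l • v = (1 - t) • (x - l • v) + t • x := by module
  have m : (x - l • v) + t • l • v ∈ ball q δ :=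
    e ▸ convex_ball q δ hx' hx (sub_nonneg.2 ht.2) ht.1 (by ring)
  have d : HasDerivAt (fun t : ℝ => (x - l • v) + t • l • v) (l • v) t := by
    simpa using ((hasDerivAt_id t).smul_const (l • v)).const_add (x - l • v)
  obtain ⟨⟨k1, k2⟩, k3⟩ := hδ (mk_mem_prod m hv)
  refine ⟨⟨k3, ?_⟩, d.differentiableAt, by rw [d.deriv]; exact ft_smul (met_bil h.met k1) k2 hl⟩
  exact (add_nonneg (mul_nonneg (sub_nonneg.2 ht.2) t0) (mul_nonneg ht.1 t1)).trans_eq
    (congrArg Prod.fst e).symm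

/-- Points near q are in the future of the points of a past directed curve from q. -/
theorem loc1 (h : Lor g D Xf) (hq : q ∈ D) (hw : Ft g Xf q w) (hO : O ∈ 𝓝 q) (h0 : 0 < q.1)
    {c : ℝ → R4} (hc : HasDerivAt c (-w) 0) (c0 : c 0 = q) :
    ∀ᶠ s in 𝓝[>] (0 : ℝ), ∀ᶠ x in 𝓝 q, Cv g Xf {z ∈ O | 0 ≤ z.1} (c s) x := by
  obtain ⟨δ, δ0, hδ⟩ := seg h hq hw hO
  have t1 : Tendsto c (𝓝[>] 0) (𝓝 q) := (c0 ▸ hc.continuousAt.tendsto).mono_left nhdsWithin_le_nhds
  have t2 : Tendsto (fun s => s⁻¹ • (q - c s)) (𝓝[>] 0) (𝓝 w) := by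
    have k := (hc.neg.tendsto_slope_zero_right)
    simp only [neg_neg, zero_add, Pi.neg_apply, c0, sub_neg_eq_add] at k
    exact k.congr fun s => by rw [neg_add_eq_sub]
  filter_upwards [t1 (ball_mem_nhds q δ0), t2 (ball_mem_nhds w δ0), self_mem_nhdsWithin,
    (continuousAt_fst.tendsto.comp t1).eventually (lt_mem_nhds h0)] with s s1 s2 s3 s4
  have cs : ContinuousAt (fun x : R4 => s⁻¹ • (x - c s)) q := by fun_prop
  filter_upwards [ball_mem_nhds q δ0, cs (isOpen_ball.mem_nhds s2),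
    continuousAt_fst.eventually (lt_mem_nhds h0)] with x x1 x2 x3
  have e : x - s • s⁻¹ • (x - c s) = c s := by
    rw [smul_inv_smul₀ (ne_of_gt s3), sub_sub_cancel]
  have k := hδ x x1 _ x2 s s3 (e.symm ▸ s1) x3.le (e.symm ▸ s4.le)
  rw [e] at k
  exact Relation.ReflTransGen.single k

/-- Points near the slice T = 0 are in the future of points of the slice. -/
theorem loc2 (h : Lor g D Xf) (hq : q ∈ D) (hO : O ∈ 𝓝 q) (h0 : q.1 = 0) (hX : 0 < (Xf q).1) :
    ∀ᶠ x in 𝓝 q, 0 ≤ x.1 → ∃ x' ∈ O, x'.1 = 0 ∧ Cv g Xf {z ∈ O | 0 ≤ z.1} x' x := by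
  obtain ⟨δ, δ0, hδ⟩ := seg h hq (w := Xf q) ⟨h.tl q hq, h.tl q hq⟩ hO
  have cs : ContinuousAt (fun x : R4 => x - (x.1 / (Xf q).1) • Xf q) q := by fun_prop
  have e0 : q - (q.1 / (Xf q).1) • Xf q = q := by simp [h0]
  have t : Tendsto (fun x : R4 => x - (x.1 / (Xf q).1) • Xf q) (𝓝 q) (𝓝 q) := by
    have := cs.tendsto
    rwa [e0] at this
  filter_upwards [ball_mem_nhds q δ0, t.eventually (ball_mem_nhds q δ0), t.eventually hO]
    with x x1 x2 x3 x4
  have e : (x - (x.1 / (Xf q).1) • Xf q).1 = 0 := by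
    simp [div_mul_cancel₀ _ hX.ne']
  refine ⟨_, x3, e, ?_⟩
  rcases x4.eq_or_lt with k | k
  · rw [← k, zero_div, zero_smul, sub_zero]
    exact .refl
  · exact Relation.ReflTransGen.single
      (hδ x x1 _ (mem_ball_self δ0) _ (div_pos k hX) x2 x4 e.ge)

/-- A timelike vector on which a time function increases is future directed. -/
theorem ft_of {B : R4 → R4 → ℝ} (hB : Bilin B) (hs : ∀ a b, B a b = B b a) (f : R4 →L[ℝ] ℝ)
    (hk : ∀ v ≠ 0, f v = 0 → 0 < B v v) {Y : R4} (h1 : 0 < f Y) (h2 : B Y Y < 0) (h3 : B w w < 0)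
    (h4 : 0 < f w) : B w Y < 0 := by
  rcases eq_or_ne (f Y • w + (-f w) • Y) 0 with k | k
  · have := congrArg (fun u => B u Y) k
    simp only [hB.add_left, hB.smul_left, show B 0 Y = 0 by
      simpa using hB.smul_left 0 0 Y] at this
    nlinarith
  · have := hk _ k (by simp [mul_comm])
    simp only [hB.add_left, hB.add_right, hB.smul_left, hB.smul_right, hs Y w] at this
    by_contra! k2
    nlinarith [mul_nonneg (mul_pos h1 h4).le k2, mul_pos (mul_pos h1 h1) (neg_pos.2 h3),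
      mul_pos (mul_pos h4 h4) (neg_pos.2 h2)]

theorem line_d (p w : R4) : HasDerivAt (fun s : ℝ => p - s • w) (-w) 0 := by
  simpa using ((hasDerivAt_id (0 : ℝ)).smul_const w).const_sub p

/-- Monotonicity along the line through p in the direction -w. -/
theorem inc {f : R4 → ℝ} (hf : DifferentiableAt ℝ f p) (h : fderiv ℝ f p w < 0) :
    ∀ᶠ s in 𝓝[>] (0 : ℝ), f p < f (p - s • w) := by
  have d := HasFDerivAt.comp_hasDerivAt (f := fun s : ℝ => p - s • w) (0 : ℝ)
    (by simpa using hf.hasFDerivAt) (line_d p w)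
  have k := (P354XJ.sign_of_deriv (I := univ) (d.sub_const (f p)).hasDerivWithinAt
    (by rw [map_neg]; linarith) (by simp)).1
  rw [univ_inter] at k
  exact k.mono fun s hs => sub_pos.1 hs

end Vale.Agent.P354DO
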