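import Vale.Agent.P354DO.Dir
import Vale.Agent.P354YR.Kap
import Vale.Agent.P354RC.Pull

/-!
DOD: points outside of a compact set see the far parts of the initial slice.
-/

open scoped ContDiff
open Set Filter Topology

noncomputable section

namespace Vale.Agent.P354DO

open Vale.Agent.P354n (R4)
open Vale.Agent.P354I (X rm rp)
open Vale.Agent.P354XE
open Vale.Agent.P354YM
open Vale.Agent.P354XA (hor proper rd_fd rd_cd Er_closed)
open Vale.Agent.P354YR (kap_ok)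

variable {M a r1 r0 θ : ℝ} {g : Tw} {D : Set R4} {Xf Y : R4 → R4} {τ Ψ : R4 → ℝ} {σ : Bool}

theorem mf_le (h : |a| < M) {r s : ℝ} (h1 : rm M a < r) (h2 : r ≤ s) : mf M a r ≤ mf M a s :=
  Real.rpow_le_rpow (sub_pos.2 h1).le (by linarith)
    (div_nonneg (rm_nonneg h) (by linarith [rm_lt h, rm_nonneg h]))

/-- Points with large |x| are far out. -/
theorem far_kx (M a ρ : ℝ) : ∃ c ≥ 0, ∀ p, xs p ≠ 0 → c < |kx M a p| → ρ < |Real.log ‖xs p‖| := by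
  obtain ⟨c, hc⟩ := (isCompact_Icc (a := Real.exp (-ρ)) (b := Real.exp ρ)).exists_bound_of_continuousOn
    (f := fun r => √r - √(M ^ 2 - a ^ 2) / (2 * √r)) (Real.continuous_sqrt.continuousOn.sub
      (continuousOn_const.div (by fun_prop) fun r hr =>
        (mul_pos two_pos (Real.sqrt_pos.2 ((Real.exp_pos _).trans_le hr.1))).ne'))
  refine ⟨max c 0, le_max_right _ _, fun p hp k => not_le.1 fun j => ?_⟩
  have n := norm_pos_iff.2 hp
  rw [abs_le, Real.le_log_iff_exp_le n, Real.log_le_iff_le_exp n] at j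
  exact ((le_max_left _ _).trans_lt k).not_ge (hc _ j)

/-- For bounded r and large t, the point lies above the slice T = 0. -/
theorem late (ha : a ≠ 0) (hM : |a| < M) (h1 : rm M a < r0) (b : ℝ) : ∃ t ≥ 0, ∀ p : R4,
    r0 ≤ rd p → rd p ≤ b → t < p.1 → (kap M a p).1 ≠ 0 := by
  have m0 := mf_pos h1
  have k0 := ka_pos hM
  refine ⟨(|b| + 1) / (mf M a r0 * ka M a), by positivity, fun p k1 k2 k3 k4 => ?_⟩
  obtain ⟨-, -, -, a4, a5⟩ := (kap_ok M a ha hM).1 p (h1.trans_le k1)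
  rw [div_lt_iff₀ (by positivity)] at k3
  rw [kr, k4] at a4
  rw [k4, zero_add] at a5
  have e1 := Real.add_one_le_exp (ka M a * p.1)
  have e2 := mul_le_mul (mf_le hM h1 k1) e1 (by nlinarith [abs_nonneg b]) (mf_pos (h1.trans_le k1)).le
  have e3 : |b| + 1 ≤ kx M a (kap M a p) := by rw [a5]; nlinarith
  nlinarith [le_abs_self b, abs_nonneg b, rm_lt hM, rm_nonneg hM]

/-- The descent on one end. -/
theorem down (ha : a ≠ 0) (hM : |a| < M) (h1 : rm M a < r1) (h2 : r1 < r0) (l : Lor g D Xf)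
    (sub : D0 M a r1 ⊆ D) (box : ∀ p ∈ D0 M a r1, p.1 = 0 → 0 < (Xf p).1)
    (ori : ∀ p ∈ En M a r1 θ, fderiv ℝ (ch M a σ) p (Y p) = Xf (ch M a σ p))
    (E : Ed M a r1 r0 θ (pb (ch M a σ) g) Y τ Ψ) {ρ c Λ : ℝ}
    (hc : ∀ p, xs p ≠ 0 → c < |kx M a p| → ρ < |Real.log ‖xs p‖|)
    (hΛ : ∀ p ∈ Er M a r1 r0 θ, Λ ≤ Ψ p → θ < Real.exp (ka M a * p.1) ∧
      ((kap M a p).1 = 0 → c < |kx M a (ch M a σ p)|)) :
    ∀ p ∈ Er M a r1 r0 θ, Λ ≤ Ψ p →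
      ∃ y ≠ 0, ρ < |Real.log ‖y‖| ∧ Cv g Xf (D0 M a r1) (pt 0 y) (ch M a σ p) := by
  intro p0 hp0 h0
  have P := ch_pull kap_ok ha hM σ l.isOpen l.met
  have md := fun p hp => mem_D0 (σ := σ) (θ := θ) (p := p) kap_ok ha hM h1 hp
  have cK : IsCompact ({p ∈ Er M a r1 r0 θ | τ p ≤ τ p0} ∩ Ψ ⁻¹' Ici Λ) :=
    (E.cpt _).of_isClosed_subset (ContinuousOn.preimage_isClosed_of_isClosed
      (fun p hp => (E.dir p hp.1).1.continuousAt.continuousWithinAt) (E.cpt _).isClosed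
      isClosed_Ici) inter_subset_left
  refine reach cK (f := τ) (fun p hp => (E.tm p hp.1.1).1.continuousAt.continuousWithinAt)
    (G := fun p => ∃ y ≠ 0, ρ < |Real.log ‖y‖| ∧ Cv g Xf (D0 M a r1) (pt 0 y) (ch M a σ p))
    (fun p hp => ?_) p0 ⟨⟨hp0, le_rfl⟩, h0⟩
  obtain ⟨⟨e1, e2⟩, e3⟩ := hp
  obtain ⟨f1, f2⟩ := hΛ p e1 e3
  have m := md p e1.1
  obtain ⟨c1, -, -, -, c5, -⟩ := ch_spec kap_ok ha hM σ (h1.trans e1.1.1)
  have hO : ∀ᶠ x in 𝓝 (ch M a σ p), xs x ≠ 0 ∧ r1 < kr M a x :=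
    (xs_cont.continuousAt.eventually_ne m.1).and
      (continuousAt_const.eventually_lt (kr_cont kap_ok ha hM m.1) m.2.2)
  rcases m.2.1.eq_or_lt with k | k
  · refine .inl ?_
    have k2 := loc2 l (sub m) (hO.and (continuousAt_const.eventually_lt
      (kx_cont kap_ok ha hM m.1).abs (f2 (c5 ▸ k.symm)))) k.symm (box _ m k.symm)
    filter_upwards [nhdsWithin_le_nhds (c1.continuousAt.eventually k2), self_mem_nhdsWithin]
      with x x1 x2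
    obtain ⟨x', j1, j2, j3⟩ := x1 (md x x2.1.1.1).2.1
    refine ⟨xs x', j1.1.1, hc _ j1.1.1 j1.2, ?_⟩
    rw [← j2, pt_xs]
    exact cv_mono j3 fun z hz => ⟨hz.1.1.1, hz.2, hz.1.1.2⟩
  refine .inr ?_
  obtain ⟨dΨ, w, w1, w2, w3⟩ := E.dir p e1
  have hw : Ft g Xf (ch M a σ p) (fderiv ℝ (ch M a σ) p w) := ⟨w1.1, ori p e1.1 ▸ w1.2⟩
  have dc : HasDerivAt (fun s : ℝ => ch M a σ (p - s • w)) (-fderiv ℝ (ch M a σ) p w) 0 := by
    rw [← map_neg]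
    exact HasFDerivAt.comp_hasDerivAt (f := fun s : ℝ => p - s • w) (0 : ℝ)
      (by rw [zero_smul, sub_zero]; exact (c1.differentiableAt (by simp)).hasFDerivAt) (line_d p w)
  have tl : Tendsto (fun s : ℝ => p - s • w) (𝓝[>] 0) (𝓝 p) := by
    simpa using (line_d p w).continuousAt.tendsto.mono_left (nhdsWithin_le_nhds (s := Ioi 0))
  have dτ := (E.tm p e1).1.differentiableAt one_ne_zero
  have t0 := (E.tm p e1).pos (P354RC.k2.1 _ _ _ _ _ P) ⟨h1.trans e1.1.1, sub m⟩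
    (by rw [pb, ori p e1.1]; exact l.tl _ (sub m)) w1
  have r0' : rd p ≠ 0 := (((rm_nonneg hM).trans_lt h1).trans e1.1.1).ne'
  have v1 : ∀ᶠ s in 𝓝[>] (0 : ℝ), r0 ≤ rd (p - s • w) := by
    rcases w3 with j | j
    · exact (tl.eventually (rd_cont.continuousAt.eventually (lt_mem_nhds j))).mono fun _ => le_of_lt
    · exact (inc ((rd_cd (n := 1) r0').differentiableAt one_ne_zero)
        (by rwa [rd_fd r0'])).mono fun s hs => e1.2.trans hs.le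
  have v2 : ∀ᶠ x in 𝓝 p, θ < Real.exp (ka M a * x.1) :=
    continuousAt_const.eventually_lt (by fun_prop) f1
  obtain ⟨s, ⟨s1, s2⟩, s3, s4, s5, s6⟩ := (((loc1 l (sub m) hw hO k dc (by simp)).and v1).and
    ((tl.eventually v2).and ((tl.eventually ((continuousAt_fst.comp
      c1.continuousAt).eventually (lt_mem_nhds k))).and ((inc dΨ w2).and
      (inc dτ.neg (by rw [fderiv_neg]; exact neg_neg_of_pos t0)))))).exists
  have s7 : τ (p - s • w) < τ p := neg_lt_neg_iff.1 s6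
  refine ⟨p - s • w, ⟨⟨⟨⟨h2.trans_le s2, s3.le, ?_⟩, s2⟩, s7.le.trans e2⟩, e3.trans s5.le⟩, s7, ?_⟩
  · exact (ch_spec kap_ok ha hM σ ((h1.trans h2).trans_le s2)).2.2.2.2.1 ▸ s4.le
  filter_upwards [nhdsWithin_le_nhds (c1.continuousAt.eventually s1)] with x x1 ⟨y, y0, y1, y2⟩
  exact ⟨y, y0, y1, y2.trans (cv_mono x1 fun z hz => ⟨hz.1.1, hz.2, hz.1.2⟩)⟩

theorem dod : DOD := by
  intro M a r1 r0 r2 s δ B
  obtain ⟨ha, hM, ⟨h1, h2, h3, h4⟩, hs, hδ⟩ := B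
  obtain ⟨C1, hC⟩ := proper hM 0
  have k0 := ka_pos hM
  refine ⟨1, one_pos, fun θ hθ => ?_⟩
  obtain ⟨R0, H⟩ := ed M a s δ r1 r0 θ hM hs hδ h1 h2 (h3.trans h4) hθ.1
  refine ⟨R0, fun R hR => ⟨0, fun N _ => (H R hR).imp fun ε0 H => ⟨H.1, fun ε hε ρ => ?_⟩⟩⟩
  obtain ⟨c, c0, hc⟩ := far_kx M a ρ
  obtain ⟨b, b1, b2⟩ : ∃ b, C1 ≤ b ∧ rp M a + c ^ 2 ≤ b := ⟨_, le_max_left _ _, le_max_right _ _⟩
  obtain ⟨t, t0, ht⟩ := late ha hM (h1.trans h2) b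
  obtain ⟨Λ, L0, L1⟩ : ∃ Λ, 0 ≤ Λ ∧ b + t / 8 < Λ := ⟨|b + t / 8| + 1, by positivity,
    by linarith [le_abs_self (b + t / 8)]⟩
  obtain ⟨b', b3, b4, b5⟩ : ∃ b', C1 ≤ b' ∧ 2 * Λ ≤ b' ∧ r0 ≤ b' := ⟨|C1| + 2 * Λ + |r0|,
    by linarith [le_abs_self C1, abs_nonneg r0], by linarith [abs_nonneg C1, abs_nonneg r0],
    by linarith [le_abs_self r0, abs_nonneg C1]⟩
  have th : ∀ x : ℝ, 0 < x → θ < Real.exp (ka M a * x) := fun x hx =>
    hθ.2.trans (Real.one_lt_exp_iff.2 (mul_pos k0 hx))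
  refine ⟨_, (kap_ok M a ha hM).2.2.2.1 (mf M a b' * Real.exp (ka M a * (32 * Λ))),
    fun p hp => hp.1, fun d T hT x hx x0 x1 => ?_⟩
  obtain ⟨σ, e⟩ : ∃ σ, nv M a σ x = x.1 + |kx M a x| := by
    rcases abs_choice (kx M a x) with j | j
    exacts [⟨true, by simp [nv, j]⟩, ⟨false, by simp [nv, j]⟩]
  have P := ch_pull kap_ok ha hM σ hT.lor.isOpen hT.lor.met
  have m : ∀ p ∈ En M a r1 θ, ch M a σ p ∈ T.D := fun p hp => hT.sub (mem_D0 kap_ok ha hM h1 hp)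
  obtain ⟨τ, Ψ, E⟩ := H.2 ε hε N _ _ _ _ _ _ (P354RC.k2.1 _ _ _ _ _ P)
    (fun p hp => ⟨h1.trans hp.1, m p hp⟩)
    (fun p hp => by rw [pb, hT.ori σ p hp]; exact hT.lor.tl _ (m p hp)) (hT.ends σ)
  have n1 : mf M a b' * Real.exp (ka M a * (32 * Λ)) < nv M a σ x := by
    by_contra! j
    rw [e] at j
    exact x1 ⟨hx.1, by rw [abs_of_nonneg hx.2.1]; linarith [abs_nonneg (kx M a x)],
      by linarith [hx.2.1]⟩
  have m0 := mf_pos ((h1.trans h2).trans_le b5)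
  obtain ⟨-, c2, c3⟩ := ci_spec kap_ok ha hM hx.1 (h1.trans hx.2.2)
    ((mul_pos m0 (Real.exp_pos _)).trans n1)
  generalize ci M a σ x = p at c2 c3
  subst c2
  have r1' : r1 < rd p := c3 ▸ hx.2.2
  obtain ⟨-, -, -, -, a5, a6⟩ := ch_spec kap_ok ha hM σ (h1.trans r1')
  have pos : ∀ p : R4, r1 < rd p → 0 ≤ (kap M a p).1 → C1 < rd p → 0 < p.1 := fun p i1 i2 i3 =>
    not_le.1 fun j => i3.not_ge (hC r1 0 h1.le p ⟨i1, (Real.exp_pos _).le, i2⟩ j)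
  have p0 : 0 < p.1 ∧ Λ ≤ rd p / 2 + p.1 / 32 := by
    rcases lt_or_ge b' (rd p) with j | j
    · have := pos p r1' (a5 ▸ hx.2.1) (b3.trans_lt j)
      exact ⟨this, by linarith⟩
    · rw [a6] at n1
      have := lt_of_mul_lt_mul_left (Real.exp_lt_exp.1 (lt_of_mul_lt_mul_left (n1.trans_le
        (mul_le_mul_of_nonneg_right (mf_le hM (h1.trans r1') j) (Real.exp_pos _).le)) m0.le)) k0.le
      exact ⟨by linarith, by linarith [P354XA.rd_nonneg p]⟩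
  refine down ha hM h1 h2 hT.lor hT.sub (fun p hp j => (hT.box p ⟨hp, .inl j⟩).1) (hT.ori σ) E hc
    (Λ := Λ) (fun z hz j => ?_) p ⟨⟨r1', (th _ p0.1).le, a5 ▸ hx.2.1⟩, c3 ▸ x0⟩
    (p0.2.trans (E.lo p p0.1.le))
  rcases lt_or_ge b (rd z) with i | i
  · refine ⟨th _ (pos z hz.1.1 hz.1.2.2 (b1.trans_lt i)), fun i0 => ?_⟩
    obtain ⟨-, -, -, i4, i5, -⟩ := ch_spec kap_ok ha hM σ (h1.trans hz.1.1)
    rw [kr, i5, i0] at i4
    exact lt_of_pow_lt_pow_left₀ 2 (abs_nonneg _) (by rw [sq_abs]; linarith)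
  · have i1 : t < z.1 := not_le.1 fun i1 => by linarith [E.up z t t0 i1]
    exact ⟨th _ (t0.trans_lt i1), fun i0 => (ht z hz.2 i i1 i0).elim⟩

end Vale.Agent.P354DO
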